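/-
S0453 (row 299), WP-D1: the level count (PROOF.md (3.4)), single type: the number of maps
`K → Fin 3` with prescribed fibre sizes is a multinomial coefficient (division-free form).
-/
import Mathlib

set_option autoImplicit false

namespace Crest.Agent.Helper42.L3

open Finset Nat

/-- Maps `K → Fin 3` with fibre sizes `c`. -/
def fibMaps (K : Type*) [Fintype K] [DecidableEq K] (c : Fin 3 → ℕ) : Finset (K → Fin 3) :=
  univ.filter (fun f => ∀ i, (univ.filter (fun x => f x = i)).card = c i)

theorem sum_card_fib {K : Type*} [Fintype K] (f : K → Fin 3) :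
    ∑ i, (univ.filter (fun x => f x = i)).card = Fintype.card K := by
  rw [← Finset.card_univ]
  exact (Finset.card_eq_sum_card_fiberwise (f := f) (s := univ) (t := univ)
    (fun x _ => Finset.mem_univ _)).symm

theorem card_fibMaps (K : Type*) [Fintype K] [DecidableEq K] (c : Fin 3 → ℕ)
    (hc : ∑ i, c i = Fintype.card K) :
    (fibMaps K c).card
      = (Fintype.card K).choose (c 0) * (Fintype.card K - c 0).choose (c 1) := by
  have hc3 : c 0 + c 1 + c 2 = Fintype.card K := by rw [← hc, Fin.sum_univ_three]
  have hsig : ((powersetCard (c 0) (univ : Finset K)).sigma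
      (fun A => powersetCard (c 1) (univ \ A))).card
      = (Fintype.card K).choose (c 0) * (Fintype.card K - c 0).choose (c 1) := by
    rw [Finset.card_sigma]
    have : ∀ A ∈ powersetCard (c 0) (univ : Finset K),
        (powersetCard (c 1) (univ \ A)).card = (Fintype.card K - c 0).choose (c 1) := by
      intro A hA
      rw [Finset.card_powersetCard, Finset.card_univ_sdiff, (Finset.mem_powersetCard.mp hA).2]
    rw [Finset.sum_congr rfl this, Finset.sum_const, Finset.card_powersetCard, Finset.card_univ,
      smul_eq_mul]
  rw [← hsig]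
  refine Finset.card_nbij'
    (fun f => (⟨univ.filter (fun x => f x = 0), univ.filter (fun x => f x = 1)⟩ :
      (_ : Finset K) × Finset K))
    (fun P => fun x => if x ∈ P.1 then (0 : Fin 3) else if x ∈ P.2 then 1 else 2) ?_ ?_ ?_ ?_
  · intro f hf
    have hf' : ∀ i, (univ.filter (fun x => f x = i)).card = c i := by
      simpa [fibMaps] using hf
    simp only [Finset.coe_sigma, Set.mem_sigma_iff, Finset.mem_coe, Finset.mem_powersetCard,
      Finset.subset_univ, true_and]
    refine ⟨hf' 0, ?_, hf' 1⟩
    intro x hx
    simp only [Finset.mem_filter, Finset.mem_univ, true_and] at hx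
    simp [hx]
  · intro P hP
    simp only [Finset.coe_sigma, Set.mem_sigma_iff, Finset.mem_coe, Finset.mem_powersetCard,
      Finset.subset_univ, true_and] at hP
    obtain ⟨hA, hBsub, hB⟩ := hP
    have hdisj : ∀ x, x ∈ P.2 → x ∉ P.1 := by
      intro x hx
      have := hBsub hx
      simpa using this
    have e0 : univ.filter (fun x => (if x ∈ P.1 then (0 : Fin 3) else if x ∈ P.2 then 1 else 2) = 0)
        = P.1 := by
      ext x
      simp only [Finset.mem_filter, Finset.mem_univ, true_and]
      by_cases h1 : x ∈ P.1
      · simp [h1]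
      · by_cases h2 : x ∈ P.2 <;> simp [h1, h2]
    have e1 : univ.filter (fun x => (if x ∈ P.1 then (0 : Fin 3) else if x ∈ P.2 then 1 else 2) = 1)
        = P.2 := by
      ext x
      simp only [Finset.mem_filter, Finset.mem_univ, true_and]
      by_cases h2 : x ∈ P.2
      · simp [hdisj x h2, h2]
      · by_cases h1 : x ∈ P.1 <;> simp [h1, h2]
    have hsum := sum_card_fib (fun x => if x ∈ P.1 then (0 : Fin 3) else if x ∈ P.2 then 1 else 2)
    rw [Fin.sum_univ_three, e0, e1, hA, hB] at hsum
    simp only [fibMaps, Finset.coe_filter, Finset.mem_univ, true_and, Set.mem_ofPred_eq]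
    intro i
    have h012 : i = 0 ∨ i = 1 ∨ i = 2 := by revert i; decide
    rcases h012 with rfl | rfl | rfl
    · rw [e0, hA]
    · rw [e1, hB]
    · omega
  · intro f _
    funext x
    simp only [Finset.mem_filter, Finset.mem_univ, true_and]
    have h012 : f x = 0 ∨ f x = 1 ∨ f x = 2 := by generalize f x = y; revert y; decide
    rcases h012 with h | h | h <;> simp [h]
  · intro P hP
    simp only [Finset.coe_sigma, Set.mem_sigma_iff, Finset.mem_coe, Finset.mem_powersetCard,
      Finset.subset_univ, true_and] at hP
    obtain ⟨_, hBsub, _⟩ := hP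
    have hdisj : ∀ x, x ∈ P.2 → x ∉ P.1 := by
      intro x hx
      have := hBsub hx
      simpa using this
    have e0 : univ.filter (fun x => (if x ∈ P.1 then (0 : Fin 3) else if x ∈ P.2 then 1 else 2) = 0)
        = P.1 := by
      ext x
      simp only [Finset.mem_filter, Finset.mem_univ, true_and]
      by_cases h1 : x ∈ P.1
      · simp [h1]
      · by_cases h2 : x ∈ P.2 <;> simp [h1, h2]
    have e1 : univ.filter (fun x => (if x ∈ P.1 then (0 : Fin 3) else if x ∈ P.2 then 1 else 2) = 1)
        = P.2 := by
      ext x
      simp only [Finset.mem_filter, Finset.mem_univ, true_and]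
      by_cases h2 : x ∈ P.2
      · simp [hdisj x h2, h2]
      · by_cases h1 : x ∈ P.1 <;> simp [h1, h2]
    rcases P with ⟨A, B⟩
    simp only at e0 e1
    dsimp only
    rw [e0, e1]

/-- Division-free multinomial count. -/
theorem card_fibMaps_mul (K : Type*) [Fintype K] [DecidableEq K] (c : Fin 3 → ℕ)
    (hc : ∑ i, c i = Fintype.card K) :
    (fibMaps K c).card * ((c 0)! * (c 1)! * (c 2)!) = (Fintype.card K)! := by
  have hc3 : c 0 + c 1 + c 2 = Fintype.card K := by rw [← hc, Fin.sum_univ_three]
  rw [card_fibMaps K c hc]
  have h0 : c 0 ≤ Fintype.card K := by omega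
  have h1 : c 1 ≤ Fintype.card K - c 0 := by omega
  have h2 : c 2 = Fintype.card K - c 0 - c 1 := by omega
  have e1 := Nat.choose_mul_factorial_mul_factorial h0
  have e2 := Nat.choose_mul_factorial_mul_factorial h1
  rw [h2, ← e1, ← e2]
  ring

end Crest.Agent.Helper42.L3
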