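/-
S0453 (row 299), WP-D1: two general lemmas on symmetric bilinear forms on `ι → ℝ`.
* `nonneg_of_no_neg_eigvec`: a symmetric form with no eigenvector of negative eigenvalue is PSD
  (Mathlib's spectral theorem for Hermitian matrices).
* `invariant_of_lagrange`: an eigenvector of negative eigenvalue is invariant under every
  involution preserving the form and for which antisymmetric vectors have nonnegative form.
-/
import Mathlib

set_option autoImplicit false

namespace Crest.Agent.Helper42.L3

open Finset Matrix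

theorem nonneg_of_no_neg_eigvec {ι : Type*} [Fintype ι] [DecidableEq ι]
    (B : LinearMap.BilinForm ℝ (ι → ℝ)) (hB : ∀ x y, B x y = B y x)
    (h : ∀ (v : ι → ℝ) (q : ℝ), q < 0 → (∀ w, B w v = q * ∑ α, w α * v α) → v = 0) :
    ∀ x, 0 ≤ B x x := by
  intro x
  set A : Matrix ι ι ℝ := LinearMap.BilinForm.toMatrix' B with hAdef
  have hA : A.IsHermitian := by
    refine Matrix.IsHermitian.ext fun i j => ?_
    simp [hAdef, LinearMap.BilinForm.toMatrix'_apply, hB]
  have key : ∀ x y : ι → ℝ, x ⬝ᵥ A *ᵥ y = B x y := by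
    intro x y
    rw [← Matrix.toBilin'_apply', hAdef, Matrix.toBilin'_toMatrix']
  have hpsd : A.PosSemidef := by
    rw [hA.posSemidef_iff_eigenvalues_nonneg]
    intro j
    by_contra hneg
    rw [not_le] at hneg
    have hv := h (⇑(hA.eigenvectorBasis j)) (hA.eigenvalues j) hneg (fun w => by
      rw [← key, hA.mulVec_eigenvectorBasis, dotProduct_smul, smul_eq_mul]; rfl)
    have hne := (hA.eigenvectorBasis).orthonormal.ne_zero j
    apply hne
    ext α
    simpa using congrFun hv α
  have := (Matrix.posSemidef_iff_dotProduct_mulVec.mp hpsd).2 x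
  rw [star_trivial, key] at this
  exact this

theorem invariant_of_lagrange {ι : Type*} [Fintype ι]
    (B : LinearMap.BilinForm ℝ (ι → ℝ)) (hB : ∀ x y, B x y = B y x)
    (π : Equiv.Perm ι) (hπ : ∀ α, π (π α) = α)
    (hinv : ∀ x y : ι → ℝ, B (x ∘ π) (y ∘ π) = B x y)
    (hanti : ∀ x : ι → ℝ, x ∘ π = -x → 0 ≤ B x x)
    (v : ι → ℝ) (q : ℝ) (hq : q < 0) (hv : ∀ w, B w v = q * ∑ α, w α * v α) :
    v ∘ π = v := by
  set u : ι → ℝ := v - v ∘ π with hu
  have hππ : (v ∘ π) ∘ π = v := by funext α; simp [hπ]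
  have huπ : u ∘ π = -u := by
    funext α
    simp [hu, hπ]
  -- B u u = q * ∑ u²
  have h1 : B u v = q * ∑ α, u α * v α := hv u
  have h2 : B (v ∘ π) u = -(q * ∑ α, u α * v α) := by
    have := hinv (v ∘ π) u
    rw [hππ, huπ] at this
    rw [← this, hB, map_neg, LinearMap.neg_apply, hv]
  have h3 : B u u = 2 * (q * ∑ α, u α * v α) := by
    have : B u u = B v u - B (v ∘ π) u := by
      have h0 : B (v - v ∘ π) u = B v u - B (v ∘ π) u := LinearMap.map_sub₂ B v (v ∘ π) u
      exact h0
    rw [this, h2, hB v u, h1]; ring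
  have h4 : ∑ α, u α * u α = 2 * ∑ α, u α * v α := by
    have e1 : ∑ α, u α * (v ∘ π) α = ∑ α, (u ∘ π) α * v α := by
      rw [← Equiv.sum_comp π (fun α => u α * (v ∘ π) α)]
      refine Finset.sum_congr rfl fun α _ => ?_
      simp [hπ]
    have : ∑ α, u α * u α = ∑ α, u α * v α - ∑ α, u α * (v ∘ π) α := by
      rw [← Finset.sum_sub_distrib]
      refine Finset.sum_congr rfl fun α _ => ?_
      simp only [hu, Pi.sub_apply]; ring
    rw [this, e1, huπ]
    simp only [Pi.neg_apply, neg_mul, Finset.sum_neg_distrib]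
    ring
  have h5 : 0 ≤ q * ∑ α, u α * u α := by
    have := hanti u huπ
    rw [h3] at this
    rw [h4]; linarith
  have h6 : ∑ α, u α * u α = 0 := by
    have hnn : 0 ≤ ∑ α, u α * u α := Finset.sum_nonneg fun α _ => mul_self_nonneg _
    nlinarith
  have h7 : ∀ α, u α = 0 := by
    intro α
    have := (Finset.sum_eq_zero_iff_of_nonneg (fun α _ => mul_self_nonneg (u α))).mp h6 α
      (Finset.mem_univ α)
    exact mul_self_eq_zero.mp this
  funext α
  have := h7 α
  simp only [hu, Pi.sub_apply] at this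
  simp only [Function.comp_apply] at this ⊢
  linarith

end Crest.Agent.Helper42.L3
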