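/-
S0453 (row 299), WP-D1: the three-party colouring model of `notes/s0453/PROOF.md` §3.
Definitions, the covariance form and the quadratic form `Bf` as a bilinear form.
-/
import Mathlib

set_option autoImplicit false

namespace Crest.Agent.Helper42.L3

open Finset

/-- `|S|²` times the covariance of `f` and `h` under the uniform measure on `S`. -/
def cov {Ω : Type*} (S : Finset Ω) (f h : Ω → ℝ) : ℝ :=
  (S.card : ℝ) * ∑ σ ∈ S, f σ * h σ - (∑ σ ∈ S, f σ) * (∑ σ ∈ S, h σ)

section cov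
variable {Ω : Type*} (S : Finset Ω)

theorem cov_comm (f h : Ω → ℝ) : cov S f h = cov S h f := by
  unfold cov
  rw [mul_comm (∑ σ ∈ S, f σ)]
  congr 2
  exact Finset.sum_congr rfl fun σ _ => mul_comm _ _

theorem cov_add_left (f f' h : Ω → ℝ) : cov S (f + f') h = cov S f h + cov S f' h := by
  unfold cov
  simp only [Pi.add_apply, add_mul, Finset.sum_add_distrib]
  ring

theorem cov_smul_left (c : ℝ) (f h : Ω → ℝ) : cov S (c • f) h = c * cov S f h := by
  unfold cov
  simp only [Pi.smul_apply, smul_eq_mul, mul_assoc, ← Finset.mul_sum]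
  ring

theorem cov_add_right (f h h' : Ω → ℝ) : cov S f (h + h') = cov S f h + cov S f h' := by
  rw [cov_comm, cov_add_left, cov_comm S h, cov_comm S h']

theorem cov_smul_right (c : ℝ) (f h : Ω → ℝ) : cov S f (c • h) = c * cov S f h := by
  rw [cov_comm, cov_smul_left, cov_comm]

theorem cov_sum_left {ι : Type*} (s : Finset ι) (f : ι → Ω → ℝ) (h : Ω → ℝ) :
    cov S (fun σ => ∑ i ∈ s, f i σ) h = ∑ i ∈ s, cov S (f i) h := by
  classical
  induction s using Finset.induction_on with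
  | empty => simp [cov]
  | insert a s ha ih =>
    have : (fun σ => ∑ i ∈ insert a s, f i σ) = f a + fun σ => ∑ i ∈ s, f i σ := by
      funext σ; simp [Finset.sum_insert ha]
    rw [this, cov_add_left, ih, Finset.sum_insert ha]

theorem cov_sum_right {ι : Type*} (s : Finset ι) (f : Ω → ℝ) (h : ι → Ω → ℝ) :
    cov S f (fun σ => ∑ i ∈ s, h i σ) = ∑ i ∈ s, cov S f (h i) := by
  rw [cov_comm, cov_sum_left]
  exact Finset.sum_congr rfl fun i _ => cov_comm _ _ _

theorem cov_congr {f f' h h' : Ω → ℝ} (hf : ∀ σ ∈ S, f σ = f' σ) (hh : ∀ σ ∈ S, h σ = h' σ) :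
    cov S f h = cov S f' h' := by
  unfold cov
  rw [Finset.sum_congr rfl fun σ hσ => by rw [hf σ hσ, hh σ hσ], Finset.sum_congr rfl hf,
    Finset.sum_congr rfl hh]

theorem cov_self_nonneg (f : Ω → ℝ) : 0 ≤ cov S f f := by
  unfold cov
  have h := sq_sum_le_card_mul_sum_sq (s := S) (f := f)
  have e : ∑ σ ∈ S, f σ * f σ = ∑ σ ∈ S, f σ ^ 2 :=
    Finset.sum_congr rfl fun σ _ => (sq (f σ)).symm
  rw [e]
  nlinarith [h]

/-- Invariance under a bijection of `S`. -/
theorem cov_comp_equiv (e : Ω ≃ Ω) (he : ∀ σ, e σ ∈ S ↔ σ ∈ S) (f h : Ω → ℝ) :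
    cov S (f ∘ e) (h ∘ e) = cov S f h := by
  unfold cov
  have key : ∀ F : Ω → ℝ, ∑ σ ∈ S, F (e σ) = ∑ σ ∈ S, F σ := fun F =>
    Finset.sum_equiv e (fun σ => (he σ).symm) (fun _ _ => rfl)
  simp only [Function.comp_apply]
  rw [key (fun σ => f σ * h σ), key f, key h]

end cov

variable {K1 K2 : Type*} [Fintype K1] [DecidableEq K1] [Fintype K2] [DecidableEq K2]

/-- A colouring: every type-1 item and every type-2 item gets a colour in `Fin 3`. -/
abbrev Col (K1 K2 : Type*) := (K1 → Fin 3) × (K2 → Fin 3)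

/-- What one party sees: its set of type-1 items and its set of type-2 items. -/
abbrev View (K1 K2 : Type*) := Finset K1 × Finset K2

/-- The view of party `i`. -/
def view (i : Fin 3) (σ : Col K1 K2) : View K1 K2 :=
  (univ.filter (fun x => σ.1 x = i), univ.filter (fun y => σ.2 y = i))

/-- The states of the colouring model with imbalance vector `δ`. -/
def states (δ : Fin 3 → ℤ) : Finset (Col K1 K2) :=
  univ.filter (fun σ => ∀ i, ((univ.filter (fun x => σ.1 x = i)).card : ℤ)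
      - ((univ.filter (fun y => σ.2 y = i)).card : ℤ) = δ i)

theorem mem_states {δ : Fin 3 → ℤ} {σ : Col K1 K2} :
    σ ∈ states δ ↔ ∀ i, (((view i σ).1.card : ℤ) - ((view i σ).2.card : ℤ) = δ i) := by
  simp [states, view]

/-- Pull a function of (party, view) back to the colourings. -/
def pull (g : Fin 3 × View K1 K2 → ℝ) (i : Fin 3) (σ : Col K1 K2) : ℝ := g (i, view i σ)

theorem pull_add (g g' : Fin 3 × View K1 K2 → ℝ) (i : Fin 3) :
    pull (g + g') i = pull g i + pull g' i := rfl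

theorem pull_smul (c : ℝ) (g : Fin 3 × View K1 K2 → ℝ) (i : Fin 3) :
    pull (c • g) i = c • pull g i := rfl

/-- The total `∑ i, g i (view i σ)`. -/
def tot (g : Fin 3 × View K1 K2 → ℝ) (σ : Col K1 K2) : ℝ := ∑ i, pull g i σ

theorem tot_add (g g' : Fin 3 × View K1 K2 → ℝ) : tot (g + g') = tot g + tot g' := by
  funext σ; simp [tot, pull_add, Finset.sum_add_distrib]

theorem tot_smul (c : ℝ) (g : Fin 3 × View K1 K2 → ℝ) : tot (c • g) = c • tot g := by
  funext σ; simp [tot, pull_smul, Finset.mul_sum]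

/-- The symmetric bilinear form of `Q = 2 ∑ Var(g_i) - Var(∑ g_i)` (times `|S|²`). -/
def Bf (δ : Fin 3 → ℤ) (g h : Fin 3 × View K1 K2 → ℝ) : ℝ :=
  2 * ∑ i, cov (states δ) (pull g i) (pull h i) - cov (states δ) (tot g) (tot h)

theorem Bf_comm (δ : Fin 3 → ℤ) (g h : Fin 3 × View K1 K2 → ℝ) : Bf δ g h = Bf δ h g := by
  unfold Bf
  rw [cov_comm _ (tot g)]
  congr 2
  exact Finset.sum_congr rfl fun i _ => cov_comm _ _ _

theorem Bf_add_left (δ : Fin 3 → ℤ) (g g' h : Fin 3 × View K1 K2 → ℝ) :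
    Bf δ (g + g') h = Bf δ g h + Bf δ g' h := by
  unfold Bf
  simp only [pull_add, tot_add, cov_add_left, Finset.sum_add_distrib]
  ring

theorem Bf_smul_left (δ : Fin 3 → ℤ) (c : ℝ) (g h : Fin 3 × View K1 K2 → ℝ) :
    Bf δ (c • g) h = c * Bf δ g h := by
  unfold Bf
  simp only [pull_smul, tot_smul, cov_smul_left, ← Finset.mul_sum]
  ring

/-- `Bf` as a bilinear form. -/
def Bform (δ : Fin 3 → ℤ) : LinearMap.BilinForm ℝ (Fin 3 × View K1 K2 → ℝ) :=
  LinearMap.mk₂ ℝ (Bf δ) (Bf_add_left δ) (fun c g h => by simp [Bf_smul_left])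
    (fun g h h' => by rw [Bf_comm, Bf_add_left, Bf_comm δ h, Bf_comm δ h'])
    (fun c g h => by rw [Bf_comm, Bf_smul_left, Bf_comm]; simp)

@[simp] theorem Bform_apply (δ : Fin 3 → ℤ) (g h : Fin 3 × View K1 K2 → ℝ) :
    Bform δ g h = Bf δ g h := rfl

/-- `Bf` only depends on the values on views of states. -/
theorem Bf_congr (δ : Fin 3 → ℤ) {g g' h h' : Fin 3 × View K1 K2 → ℝ}
    (hg : ∀ σ ∈ states δ, ∀ i, pull g i σ = pull g' i σ)
    (hh : ∀ σ ∈ states δ, ∀ i, pull h i σ = pull h' i σ) : Bf δ g h = Bf δ g' h' := by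
  unfold Bf
  congr 1
  · congr 1
    exact Finset.sum_congr rfl fun i _ => cov_congr _ (fun σ hσ => hg σ hσ i) (fun σ hσ => hh σ hσ i)
  · exact cov_congr _ (fun σ hσ => by simp [tot, hg σ hσ]) (fun σ hσ => by simp [tot, hh σ hσ])

end Crest.Agent.Helper42.L3
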