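/-
S0453 (row 299), WP-D1: symmetry of the colouring model under permutations of the items,
the antisymmetric lemma (PROOF.md (3.2)) and the reduction of eigenvectors of negative
eigenvalue to functions of the level (PROOF.md (3.3)).
-/
import Crest.Agent.Helper42.L3.Model
import Crest.Agent.Helper42.L3.Eig

set_option autoImplicit false
set_option linter.unusedSectionVars false

namespace Crest.Agent.Helper42.L3

open Finset

variable {K1 K2 : Type*} [Fintype K1] [DecidableEq K1] [Fintype K2] [DecidableEq K2]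

/-- Action of a pair of item permutations on colourings. -/
def actC (e : Equiv.Perm K1 × Equiv.Perm K2) : Col K1 K2 ≃ Col K1 K2 where
  toFun σ := (σ.1 ∘ e.1, σ.2 ∘ e.2)
  invFun σ := (σ.1 ∘ e.1.symm, σ.2 ∘ e.2.symm)
  left_inv σ := by ext <;> simp
  right_inv σ := by ext <;> simp

/-- Action of a pair of item permutations on views. -/
def actV (e : Equiv.Perm K1 × Equiv.Perm K2) : View K1 K2 ≃ View K1 K2 where
  toFun Y := (Y.1.map e.1.symm.toEmbedding, Y.2.map e.2.symm.toEmbedding)
  invFun Y := (Y.1.map e.1.toEmbedding, Y.2.map e.2.toEmbedding)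
  left_inv Y := by
    ext x <;> simp [Finset.mem_map_equiv]
  right_inv Y := by
    ext x <;> simp [Finset.mem_map_equiv]

theorem view_actC (e : Equiv.Perm K1 × Equiv.Perm K2) (i : Fin 3) (σ : Col K1 K2) :
    view i (actC e σ) = actV e (view i σ) := by
  have h1 : actC e σ = (σ.1 ∘ e.1, σ.2 ∘ e.2) := rfl
  have h2 : actV e (view i σ)
      = ((view i σ).1.map e.1.symm.toEmbedding, (view i σ).2.map e.2.symm.toEmbedding) := rfl
  rw [h1, h2]
  refine Prod.ext ?_ ?_
  · ext x
    simp only [view, Finset.mem_map_equiv, Finset.mem_filter, Finset.mem_univ, true_and,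
      Function.comp_apply, Equiv.symm_symm]
  · ext x
    simp only [view, Finset.mem_map_equiv, Finset.mem_filter, Finset.mem_univ, true_and,
      Function.comp_apply, Equiv.symm_symm]

theorem actC_mem_states (e : Equiv.Perm K1 × Equiv.Perm K2) (δ : Fin 3 → ℤ) (σ : Col K1 K2) :
    actC e σ ∈ states δ ↔ σ ∈ states δ := by
  simp only [mem_states, view_actC]
  simp [actV]

/-- Action on the index type `Fin 3 × View`. -/
def actI (e : Equiv.Perm K1 × Equiv.Perm K2) : Equiv.Perm (Fin 3 × View K1 K2) :=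
  Equiv.prodCongr (Equiv.refl _) (actV e)

theorem pull_comp_actI (e : Equiv.Perm K1 × Equiv.Perm K2) (g : Fin 3 × View K1 K2 → ℝ)
    (i : Fin 3) : pull (g ∘ actI e) i = pull g i ∘ actC e := by
  funext σ
  simp [pull, actI, view_actC]

theorem tot_comp_actI (e : Equiv.Perm K1 × Equiv.Perm K2) (g : Fin 3 × View K1 K2 → ℝ) :
    tot (g ∘ actI e) = tot g ∘ actC e := by
  funext σ
  simp [tot, pull_comp_actI]

theorem Bf_comp_actI (e : Equiv.Perm K1 × Equiv.Perm K2) (δ : Fin 3 → ℤ)
    (g h : Fin 3 × View K1 K2 → ℝ) : Bf δ (g ∘ actI e) (h ∘ actI e) = Bf δ g h := by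
  unfold Bf
  simp only [pull_comp_actI, tot_comp_actI]
  rw [cov_comp_equiv _ (actC e) (actC_mem_states e δ)]
  congr 2
  exact Finset.sum_congr rfl fun i _ => cov_comp_equiv _ (actC e) (actC_mem_states e δ) _ _

/-- The antisymmetric lemma: if every state has a party whose view is fixed by `e`, then
`Bf ≥ 0` on `e`-antisymmetric vectors. -/
theorem Bf_nonneg_of_anti (e : Equiv.Perm K1 × Equiv.Perm K2) (δ : Fin 3 → ℤ)
    (hfix : ∀ σ : Col K1 K2, ∃ i₀, actV e (view i₀ σ) = view i₀ σ)
    (g : Fin 3 × View K1 K2 → ℝ) (hg : g ∘ actI e = -g) : 0 ≤ Bf δ g g := by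
  -- pointwise
  have hpt : ∀ σ : Col K1 K2, (tot g σ) ^ 2 ≤ 2 * ∑ i, (pull g i σ) ^ 2 := by
    intro σ
    obtain ⟨i₀, hi₀⟩ := hfix σ
    have h0 : pull g i₀ σ = 0 := by
      have := congrFun hg (i₀, view i₀ σ)
      simp only [Function.comp_apply, actI, Equiv.prodCongr_apply, Prod.map_apply,
        Equiv.refl_apply, hi₀, Pi.neg_apply] at this
      unfold pull
      linarith
    simp only [tot, Fin.sum_univ_three]
    fin_cases i₀
    · simp only [Fin.zero_eta] at h0; rw [h0]
      nlinarith [sq_nonneg (pull g 1 σ - pull g 2 σ)]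
    · simp only [Fin.mk_one] at h0; rw [h0]
      nlinarith [sq_nonneg (pull g 0 σ - pull g 2 σ)]
    · have h0' : pull g 2 σ = 0 := h0
      rw [h0']
      nlinarith [sq_nonneg (pull g 0 σ - pull g 1 σ)]
  -- zero sums
  have hsum : ∀ i, ∑ σ ∈ states δ, pull g i σ = 0 := by
    intro i
    have h1 : ∑ σ ∈ states δ, pull g i (actC e σ) = ∑ σ ∈ states δ, pull g i σ :=
      Finset.sum_equiv (actC e) (fun σ => (actC_mem_states e δ σ).symm) (fun _ _ => rfl)
    have h2 : ∑ σ ∈ states δ, pull g i (actC e σ) = -∑ σ ∈ states δ, pull g i σ := by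
      rw [← Finset.sum_neg_distrib]
      refine Finset.sum_congr rfl fun σ _ => ?_
      have := congrFun (pull_comp_actI e g i) σ
      rw [hg] at this
      simpa [pull] using this.symm
    linarith
  unfold Bf
  have hc1 : ∀ i : Fin 3, cov (states δ : Finset (Col K1 K2)) (pull g i) (pull g i)
      = ((states δ : Finset (Col K1 K2)).card : ℝ) * ∑ σ ∈ states δ, (pull g i σ) ^ 2 := by
    intro i
    unfold cov
    rw [hsum i]
    simp [sq]
  have hc2 : cov (states δ : Finset (Col K1 K2)) (tot g) (tot g)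
      ≤ ((states δ : Finset (Col K1 K2)).card : ℝ) * ∑ σ ∈ states δ, (tot g σ) ^ 2 := by
    unfold cov
    have : ∑ σ ∈ states δ, tot g σ * tot g σ = ∑ σ ∈ states δ, (tot g σ) ^ 2 :=
      Finset.sum_congr rfl fun σ _ => (sq _).symm
    rw [this]
    nlinarith [mul_self_nonneg (∑ σ ∈ states δ, tot g σ)]
  have hc3 : ((states δ : Finset (Col K1 K2)).card : ℝ) * ∑ σ ∈ states δ, (tot g σ) ^ 2
      ≤ 2 * ∑ i : Fin 3, ((states δ : Finset (Col K1 K2)).card : ℝ)
          * ∑ σ ∈ states δ, (pull g i σ) ^ 2 := by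
    rw [← Finset.mul_sum, ← mul_assoc, mul_comm 2, mul_assoc]
    apply mul_le_mul_of_nonneg_left _ (Nat.cast_nonneg _)
    rw [Finset.sum_comm, Finset.mul_sum]
    exact Finset.sum_le_sum fun σ _ => hpt σ
  simp only [hc1]
  linarith

end Crest.Agent.Helper42.L3
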