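/-
S0453 (row 299), WP-D1: eigenvectors of negative eigenvalue of `Bf` are invariant under
same-type transpositions, hence functions of the cardinalities (PROOF.md (3.3)).
-/
import Crest.Agent.Helper42.L3.Sym

set_option autoImplicit false
set_option linter.unusedSectionVars false

namespace Crest.Agent.Helper42.L3

open Finset

theorem map_swap_eq_self {K : Type*} [DecidableEq K] (u u' : K) (Y : Finset K)
    (h : u ∈ Y ↔ u' ∈ Y) : Y.map (Equiv.swap u u').toEmbedding = Y := by
  ext x
  rw [Finset.mem_map_equiv, Equiv.symm_swap]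
  by_cases hx : x = u
  · subst hx; rw [Equiv.swap_apply_left]; exact h.symm
  · by_cases hx' : x = u'
    · subst hx'; rw [Equiv.swap_apply_right]; exact h
    · rw [Equiv.swap_apply_of_ne_of_ne hx hx']

theorem map_swap_map_swap {K : Type*} [DecidableEq K] (u u' : K) (Y : Finset K) :
    (Y.map (Equiv.swap u u').toEmbedding).map (Equiv.swap u u').toEmbedding = Y := by
  ext x
  simp [Finset.mem_map_equiv]

theorem fin3_third (a b : Fin 3) : ∃ c : Fin 3, (a = c ↔ b = c) := by
  revert a b; decide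

/-- If a function of finsets is invariant under all transpositions, it only depends on the
cardinality. -/
theorem eq_of_card_eq {K : Type*} [DecidableEq K] {β : Type*} (f : Finset K → β)
    (hf : ∀ (u u' : K) (Y : Finset K), f (Y.map (Equiv.swap u u').toEmbedding) = f Y) :
    ∀ (n : ℕ) (Y Y' : Finset K), (Y \ Y').card = n → Y.card = Y'.card → f Y = f Y' := by
  intro n
  induction n with
  | zero =>
    intro Y Y' h0 hc
    have hsub : Y ⊆ Y' := by
      rw [← Finset.sdiff_eq_empty_iff_subset]; exact Finset.card_eq_zero.mp h0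
    rw [Finset.eq_of_subset_of_card_le hsub hc.ge]
  | succ n ih =>
    intro Y Y' hn hc
    have hne : (Y \ Y').Nonempty := by
      rw [← Finset.card_pos]; omega
    obtain ⟨u, hu⟩ := hne
    have hne' : (Y' \ Y).Nonempty := by
      rw [← Finset.card_pos, ← Finset.card_sdiff_comm hc]; omega
    obtain ⟨u', hu'⟩ := hne'
    rw [Finset.mem_sdiff] at hu hu'
    rw [← hf u u' Y]
    apply ih
    · -- the new difference is the old one minus `u`
      have hsub : (Y.map (Equiv.swap u u').toEmbedding) \ Y' = (Y \ Y').erase u := by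
        ext x
        simp only [Finset.mem_sdiff, Finset.mem_map_equiv, Equiv.symm_swap, Finset.mem_erase]
        by_cases hx : x = u
        · subst hx
          simp [Equiv.swap_apply_left, hu'.2]
        · by_cases hx' : x = u'
          · subst hx'
            simp [hu'.1]
          · rw [Equiv.swap_apply_of_ne_of_ne hx hx']
            simp [hx]
      rw [hsub, Finset.card_erase_of_mem (Finset.mem_sdiff.mpr hu), hn]
      rfl
    · rw [Finset.card_map]; exact hc

variable {K1 K2 : Type*} [Fintype K1] [DecidableEq K1] [Fintype K2] [DecidableEq K2]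

theorem actV_swap1 (u u' : K1) (Y : View K1 K2) :
    actV (Equiv.swap u u', (1 : Equiv.Perm K2)) Y
      = (Y.1.map (Equiv.swap u u').toEmbedding, Y.2) := by
  have : actV (Equiv.swap u u', (1 : Equiv.Perm K2)) Y
      = (Y.1.map (Equiv.swap u u').symm.toEmbedding,
          Y.2.map (1 : Equiv.Perm K2).symm.toEmbedding) := rfl
  rw [this, Equiv.symm_swap]
  refine Prod.ext rfl ?_
  ext x; simp [Finset.mem_map_equiv]

theorem actV_swap2 (y y' : K2) (Y : View K1 K2) :
    actV ((1 : Equiv.Perm K1), Equiv.swap y y') Y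
      = (Y.1, Y.2.map (Equiv.swap y y').toEmbedding) := by
  have : actV ((1 : Equiv.Perm K1), Equiv.swap y y') Y
      = (Y.1.map (1 : Equiv.Perm K1).symm.toEmbedding,
          Y.2.map (Equiv.swap y y').symm.toEmbedding) := rfl
  rw [this, Equiv.symm_swap]
  refine Prod.ext ?_ rfl
  ext x; simp [Finset.mem_map_equiv]

theorem hfix_swap1 (u u' : K1) (σ : Col K1 K2) :
    ∃ i₀, actV (Equiv.swap u u', (1 : Equiv.Perm K2)) (view i₀ σ) = view i₀ σ := by
  obtain ⟨c, hc⟩ := fin3_third (σ.1 u) (σ.1 u')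
  refine ⟨c, ?_⟩
  rw [actV_swap1, map_swap_eq_self]
  simp [view, hc]

theorem hfix_swap2 (y y' : K2) (σ : Col K1 K2) :
    ∃ i₀, actV ((1 : Equiv.Perm K1), Equiv.swap y y') (view i₀ σ) = view i₀ σ := by
  obtain ⟨c, hc⟩ := fin3_third (σ.2 y) (σ.2 y')
  refine ⟨c, ?_⟩
  rw [actV_swap2, map_swap_eq_self]
  simp [view, hc]

/-- Eigenvectors of negative eigenvalue are invariant under involutions fixing a view of every
state. -/
theorem lagrange_invariant (δ : Fin 3 → ℤ) (v : Fin 3 × View K1 K2 → ℝ) (q : ℝ) (hq : q < 0)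
    (hv : ∀ w, Bf δ w v = q * ∑ α, w α * v α)
    (e : Equiv.Perm K1 × Equiv.Perm K2) (hinvol : ∀ Y, actV e (actV e Y) = Y)
    (hfix : ∀ σ : Col K1 K2, ∃ i₀, actV e (view i₀ σ) = view i₀ σ) : v ∘ actI e = v :=
  invariant_of_lagrange (Bform δ) (Bf_comm δ) (actI e)
    (by
      rintro ⟨i, Y⟩
      show (i, actV e (actV e Y)) = (i, Y)
      rw [hinvol]) (Bf_comp_actI e δ) (Bf_nonneg_of_anti e δ hfix) v q hq hv

theorem lagrange_invariant1 (δ : Fin 3 → ℤ) (v : Fin 3 × View K1 K2 → ℝ) (q : ℝ) (hq : q < 0)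
    (hv : ∀ w, Bf δ w v = q * ∑ α, w α * v α) (u u' : K1) (i : Fin 3) (Y : View K1 K2) :
    v (i, (Y.1.map (Equiv.swap u u').toEmbedding, Y.2)) = v (i, Y) := by
  have h := lagrange_invariant δ v q hq hv (Equiv.swap u u', (1 : Equiv.Perm K2))
    (fun Y => by simp only [actV_swap1, map_swap_map_swap]) (hfix_swap1 u u')
  have := congrFun h (i, Y)
  simpa [actI, actV_swap1] using this

theorem lagrange_invariant2 (δ : Fin 3 → ℤ) (v : Fin 3 × View K1 K2 → ℝ) (q : ℝ) (hq : q < 0)
    (hv : ∀ w, Bf δ w v = q * ∑ α, w α * v α) (y y' : K2) (i : Fin 3) (Y : View K1 K2) :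
    v (i, (Y.1, Y.2.map (Equiv.swap y y').toEmbedding)) = v (i, Y) := by
  have h := lagrange_invariant δ v q hq hv ((1 : Equiv.Perm K1), Equiv.swap y y')
    (fun Y => by simp only [actV_swap2, map_swap_map_swap]) (hfix_swap2 y y')
  have := congrFun h (i, Y)
  simpa [actI, actV_swap2] using this

/-- An eigenvector of negative eigenvalue is a function of the two cardinalities. -/
theorem exists_level_fn (δ : Fin 3 → ℤ) (v : Fin 3 × View K1 K2 → ℝ) (q : ℝ) (hq : q < 0)
    (hv : ∀ w, Bf δ w v = q * ∑ α, w α * v α) :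
    ∃ ψ : Fin 3 → ℕ → ℕ → ℝ, ∀ (i : Fin 3) (Y : View K1 K2), v (i, Y) = ψ i Y.1.card Y.2.card := by
  have key : ∀ (i : Fin 3) (Y Y' : View K1 K2), Y.1.card = Y'.1.card → Y.2.card = Y'.2.card →
      v (i, Y) = v (i, Y') := by
    intro i Y Y' h1 h2
    have e1 : v (i, (Y.1, Y.2)) = v (i, (Y'.1, Y.2)) :=
      eq_of_card_eq (fun Z => v (i, (Z, Y.2)))
        (fun u u' Z => lagrange_invariant1 δ v q hq hv u u' i (Z, Y.2)) _ Y.1 Y'.1 rfl h1
    have e2 : v (i, (Y'.1, Y.2)) = v (i, (Y'.1, Y'.2)) :=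
      eq_of_card_eq (fun Z => v (i, (Y'.1, Z)))
        (fun u u' Z => lagrange_invariant2 δ v q hq hv u u' i (Y'.1, Z)) _ Y.2 Y'.2 rfl h2
    exact e1.trans e2
  classical
  refine ⟨fun i a b => if h : ∃ Y : View K1 K2, Y.1.card = a ∧ Y.2.card = b
      then v (i, h.choose) else 0, fun i Y => ?_⟩
  have hex : ∃ Y' : View K1 K2, Y'.1.card = Y.1.card ∧ Y'.2.card = Y.2.card := ⟨Y, rfl, rfl⟩
  simp only [dif_pos hex]
  exact key i Y _ hex.choose_spec.1.symm hex.choose_spec.2.symm

end Crest.Agent.Helper42.L3
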