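/-
S0453 (row 299), WP-D1: `Bf ≥ 0` for all vectors follows from `Bf ≥ 0` for functions of the
level (PROOF.md (3.3)-(3.5)), and the final form of (L3).
-/
import Crest.Agent.Helper42.L3.Inv

set_option autoImplicit false
set_option linter.unusedSectionVars false

namespace Crest.Agent.Helper42.L3

open Finset

variable {K1 K2 : Type*} [Fintype K1] [DecidableEq K1] [Fintype K2] [DecidableEq K2]

/-- A function of the level (number of type-1 items) of each party. -/
def levelFn (φ : Fin 3 → ℕ → ℝ) : Fin 3 × View K1 K2 → ℝ := fun p => φ p.1 p.2.1.card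

theorem Bf_nonneg_of_level (δ : Fin 3 → ℤ)
    (hlevel : ∀ φ : Fin 3 → ℕ → ℝ,
      0 ≤ Bf δ (levelFn φ : Fin 3 × View K1 K2 → ℝ) (levelFn φ))
    (g : Fin 3 × View K1 K2 → ℝ) : 0 ≤ Bf δ g g := by
  have h := nonneg_of_no_neg_eigvec (Bform δ : LinearMap.BilinForm ℝ (Fin 3 × View K1 K2 → ℝ))
    (Bf_comm δ) ?_ g
  · exact h
  intro v q hq hv
  have hv' : ∀ w, Bf δ w v = q * ∑ α, w α * v α := hv
  obtain ⟨ψ, hψ⟩ := exists_level_fn δ v q hq hv'
  set φ : Fin 3 → ℕ → ℝ := fun i l => ψ i l (((l : ℤ) - δ i).toNat) with hφ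
  have hcongr : Bf δ v v = Bf δ (levelFn φ : Fin 3 × View K1 K2 → ℝ) (levelFn φ) := by
    apply Bf_congr <;>
    · intro σ hσ i
      have hm := (mem_states.mp hσ) i
      simp only [pull, levelFn, hφ, hψ]
      congr 1
      omega
  have h0 : 0 ≤ Bf δ v v := by rw [hcongr]; exact hlevel φ
  rw [hv' v] at h0
  have hnn : 0 ≤ ∑ α, v α * v α := Finset.sum_nonneg fun α _ => mul_self_nonneg _
  have hz : ∑ α, v α * v α = 0 := by nlinarith
  funext α
  have := (Finset.sum_eq_zero_iff_of_nonneg (fun α _ => mul_self_nonneg (v α))).mp hz α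
    (Finset.mem_univ α)
  exact mul_self_eq_zero.mp this

/-- (L3) from `Bf ≥ 0`. -/
theorem L3_of_Bf_nonneg (δ : Fin 3 → ℤ)
    (hB : ∀ g : Fin 3 × View K1 K2 → ℝ, 0 ≤ Bf δ g g)
    (g : Fin 3 → View K1 K2 → ℝ)
    (hg : ∀ i, ∑ σ ∈ (states δ : Finset (Col K1 K2)), g i (view i σ) = 0) :
    ∑ σ ∈ (states δ : Finset (Col K1 K2)), (∑ i, g i (view i σ)) ^ 2
      ≤ 2 * ∑ σ ∈ (states δ : Finset (Col K1 K2)), ∑ i, (g i (view i σ)) ^ 2 := by
  set g' : Fin 3 × View K1 K2 → ℝ := fun p => g p.1 p.2 with hg'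
  have h := hB g'
  unfold Bf at h
  have hp : ∀ i, pull g' i = fun σ => g i (view i σ) := fun i => rfl
  have ht : tot g' = fun σ => ∑ i, g i (view i σ) := rfl
  have hc1 : ∀ i : Fin 3, cov (states δ : Finset (Col K1 K2)) (pull g' i) (pull g' i)
      = ((states δ : Finset (Col K1 K2)).card : ℝ) * ∑ σ ∈ states δ, (g i (view i σ)) ^ 2 := by
    intro i
    unfold cov
    rw [hp i]
    simp only [hg i]
    simp [sq]
  have hc2 : cov (states δ : Finset (Col K1 K2)) (tot g') (tot g')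
      = ((states δ : Finset (Col K1 K2)).card : ℝ)
          * ∑ σ ∈ states δ, (∑ i, g i (view i σ)) ^ 2 := by
    unfold cov
    rw [ht]
    have : ∑ σ ∈ (states δ : Finset (Col K1 K2)), ∑ i, g i (view i σ) = 0 := by
      rw [Finset.sum_comm]
      exact Finset.sum_eq_zero fun i _ => hg i
    simp only [this]
    simp [sq]
  simp only [hc1] at h
  rw [hc2, ← Finset.mul_sum] at h
  by_cases hS : (states δ : Finset (Col K1 K2)).card = 0
  · rw [Finset.card_eq_zero] at hS
    rw [hS]; simp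
  · have hpos : (0 : ℝ) < ((states δ : Finset (Col K1 K2)).card : ℝ) := by
      exact_mod_cast Nat.pos_of_ne_zero hS
    rw [Finset.sum_comm] at h
    have h' : 0 ≤ ((states δ : Finset (Col K1 K2)).card : ℝ)
        * (2 * ∑ σ ∈ (states δ : Finset (Col K1 K2)), ∑ i, (g i (view i σ)) ^ 2
            - ∑ σ ∈ (states δ : Finset (Col K1 K2)), (∑ i, g i (view i σ)) ^ 2) := by
      linarith
    have := nonneg_of_mul_nonneg_right h' hpos
    linarith

end Crest.Agent.Helper42.L3
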