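/-
S0453 (row 299), WP-D1: functions of the level.  The level count (PROOF.md (3.4)) turns `Bf` on
level functions into the three-site form, which is nonnegative by (1D) (PROOF.md (3.5)).
Conclusion: `L3`, the three-body inequality for the colouring model.
-/
import Crest.Agent.Helper42.L3.Reduce
import Crest.Agent.Helper42.L3.Count
import Crest.Agent.Helper42.L3.OneD.ThreeSite

set_option autoImplicit false
set_option linter.unusedSectionVars false

namespace Crest.Agent.Helper42.L3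

open Finset Nat

/-- Shifted level weights `1 / ((x + δ⁺)! (x + δ⁻)!)`. -/
noncomputable def pw (δ : Fin 3 → ℤ) (i : Fin 3) (x : ℕ) : ℝ :=
  1 / ((((x + (δ i).toNat)! : ℕ) : ℝ) * (((x + (-δ i).toNat)! : ℕ) : ℝ))

theorem pw_pos (δ : Fin 3 → ℤ) (i : Fin 3) (x : ℕ) : 0 < pw δ i x := by
  unfold pw
  have h1 : (0 : ℝ) < ((x + (δ i).toNat)! : ℕ) := by exact_mod_cast Nat.factorial_pos _
  have h2 : (0 : ℝ) < ((x + (-δ i).toNat)! : ℕ) := by exact_mod_cast Nat.factorial_pos _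
  positivity

theorem fact_lc (k : ℕ) : (((k + 1)! : ℕ) : ℝ) ^ 2 ≤ ((k ! : ℕ) : ℝ) * (((k + 2)! : ℕ) : ℝ) := by
  have h1 : (((k + 1)! : ℕ) : ℝ) = ((k : ℝ) + 1) * (k ! : ℕ) := by
    rw [Nat.factorial_succ]; push_cast; ring
  have h2 : (((k + 2)! : ℕ) : ℝ) = ((k : ℝ) + 2) * (((k + 1)! : ℕ) : ℝ) := by
    rw [Nat.factorial_succ (k + 1)]; push_cast; ring
  have hpos : (0 : ℝ) < (k ! : ℕ) := by exact_mod_cast Nat.factorial_pos _
  have hk : (0 : ℝ) ≤ k := Nat.cast_nonneg k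
  rw [h2, h1]
  nlinarith [mul_pos hpos hpos]

theorem pw_lc (δ : Fin 3 → ℤ) (i : Fin 3) (x : ℕ) :
    pw δ i x * pw δ i (x + 2) ≤ pw δ i (x + 1) ^ 2 := by
  unfold pw
  have e1 : x + 2 + (δ i).toNat = x + (δ i).toNat + 2 := by ring
  have e2 : x + 2 + (-δ i).toNat = x + (-δ i).toNat + 2 := by ring
  have e3 : x + 1 + (δ i).toNat = x + (δ i).toNat + 1 := by ring
  have e4 : x + 1 + (-δ i).toNat = x + (-δ i).toNat + 1 := by ring
  rw [e1, e2, e3, e4]
  set k := x + (δ i).toNat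
  set k' := x + (-δ i).toNat
  have a0 : (0 : ℝ) < (k ! : ℕ) := by exact_mod_cast Nat.factorial_pos _
  have a1 : (0 : ℝ) < ((k + 1)! : ℕ) := by exact_mod_cast Nat.factorial_pos _
  have a2 : (0 : ℝ) < ((k + 2)! : ℕ) := by exact_mod_cast Nat.factorial_pos _
  have b0 : (0 : ℝ) < (k' ! : ℕ) := by exact_mod_cast Nat.factorial_pos _
  have b1 : (0 : ℝ) < ((k' + 1)! : ℕ) := by exact_mod_cast Nat.factorial_pos _
  have b2 : (0 : ℝ) < ((k' + 2)! : ℕ) := by exact_mod_cast Nat.factorial_pos _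
  have hA := fact_lc k
  have hB := fact_lc k'
  rw [_root_.div_mul_div_comm, one_mul, div_pow, one_pow]
  apply one_div_le_one_div_of_le (by positivity)
  calc ((((k + 1)! : ℕ) : ℝ) * (((k' + 1)! : ℕ) : ℝ)) ^ 2
      = (((k + 1)! : ℕ) : ℝ) ^ 2 * (((k' + 1)! : ℕ) : ℝ) ^ 2 := by ring
    _ ≤ (((k ! : ℕ) : ℝ) * (((k + 2)! : ℕ) : ℝ)) * (((k' ! : ℕ) : ℝ) * (((k' + 2)! : ℕ) : ℝ)) :=
        mul_le_mul hA hB (by positivity) (by positivity)
    _ = _ := by ring

variable {K1 K2 : Type*} [Fintype K1] [DecidableEq K1] [Fintype K2] [DecidableEq K2]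

/-- The shifted level vector of a colouring. -/
def key (δ : Fin 3 → ℤ) (σ : Col K1 K2) : Fin 3 → ℕ :=
  fun i => (view i σ).1.card - (δ i).toNat

theorem sum_lev1 (σ : Col K1 K2) : ∑ i, (view i σ).1.card = Fintype.card K1 := sum_card_fib σ.1
theorem sum_lev2 (σ : Col K1 K2) : ∑ i, (view i σ).2.card = Fintype.card K2 := sum_card_fib σ.2

/-- Regrouping a sum over states by the shifted level vector. -/
theorem sum_states_key (δ : Fin 3 → ℤ) (hne : (states δ : Finset (Col K1 K2)).Nonempty)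
    (F : (Fin 3 → ℕ) → ℝ) :
    ∑ σ ∈ (states δ : Finset (Col K1 K2)), F (key δ σ)
      = (((Fintype.card K1)! : ℕ) : ℝ) * (((Fintype.card K2)! : ℕ) : ℝ)
        * ∑ a ∈ Finset.Nat.antidiagonalTuple 3
            (Fintype.card K1 - ((δ 0).toNat + (δ 1).toNat + (δ 2).toNat)),
            (∏ i, pw δ i (a i)) * F a := by
  obtain ⟨σ₀, hσ₀⟩ := hne
  have hmm : ∀ i, (((δ i).toNat : ℕ) : ℤ) - (((-δ i).toNat : ℕ) : ℤ) = δ i :=
    fun i => Int.toNat_sub_toNat_neg (δ i)
  -- basic facts on states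
  have hst : ∀ σ ∈ (states δ : Finset (Col K1 K2)), ∀ i,
      (((view i σ).1.card : ℕ) : ℤ) - (((view i σ).2.card : ℕ) : ℤ) = δ i :=
    fun σ hσ => mem_states.mp hσ
  have hge : ∀ σ ∈ (states δ : Finset (Col K1 K2)), ∀ i, (δ i).toNat ≤ (view i σ).1.card := by
    intro σ hσ i
    have := hst σ hσ i
    have := hmm i
    omega
  -- numerical facts from σ₀
  have s1 := sum_lev1 σ₀
  have s2 := sum_lev2 σ₀
  rw [Fin.sum_univ_three] at s1 s2
  have g0 := hge σ₀ hσ₀ 0
  have g1 := hge σ₀ hσ₀ 1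
  have g2 := hge σ₀ hσ₀ 2
  have d0 := hst σ₀ hσ₀ 0
  have d1 := hst σ₀ hσ₀ 1
  have d2 := hst σ₀ hσ₀ 2
  have m0 := hmm 0
  have m1 := hmm 1
  have m2 := hmm 2
  set n' := Fintype.card K1 - ((δ 0).toNat + (δ 1).toNat + (δ 2).toNat) with hn'
  have hmaps : ∀ σ ∈ (states δ : Finset (Col K1 K2)),
      key δ σ ∈ Finset.Nat.antidiagonalTuple 3 n' := by
    intro σ hσ
    rw [Finset.Nat.mem_antidiagonalTuple, Fin.sum_univ_three]
    have t1 := sum_lev1 σ
    rw [Fin.sum_univ_three] at t1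
    have := hge σ hσ 0
    have := hge σ hσ 1
    have := hge σ hσ 2
    simp only [key]
    omega
  rw [← Finset.sum_fiberwise_of_maps_to hmaps, Finset.mul_sum]
  refine Finset.sum_congr rfl fun a ha => ?_
  rw [Finset.Nat.mem_antidiagonalTuple, Fin.sum_univ_three] at ha
  -- the fibre is a product
  have hfib : (states δ : Finset (Col K1 K2)).filter (fun σ => key δ σ = a)
      = fibMaps K1 (fun i => a i + (δ i).toNat) ×ˢ fibMaps K2 (fun i => a i + (-δ i).toNat) := by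
    ext σ
    simp only [Finset.mem_filter, Finset.mem_product, fibMaps, Finset.mem_univ, true_and]
    constructor
    · rintro ⟨hσ, hk⟩
      refine ⟨fun i => ?_, fun i => ?_⟩
      · have h1 := hge σ hσ i
        have h2 := congrFun hk i
        simp only [key] at h2
        have : (view i σ).1.card = a i + (δ i).toNat := by omega
        exact this
      · have h1 := hge σ hσ i
        have h2 := congrFun hk i
        simp only [key] at h2
        have h3 := hst σ hσ i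
        have h4 := hmm i
        have : (view i σ).2.card = a i + (-δ i).toNat := by omega
        exact this
    · rintro ⟨h1, h2⟩
      have h1' : ∀ i, (view i σ).1.card = a i + (δ i).toNat := h1
      have h2' : ∀ i, (view i σ).2.card = a i + (-δ i).toNat := h2
      refine ⟨mem_states.mpr fun i => ?_, ?_⟩
      · have := h1' i
        have := h2' i
        have := hmm i
        omega
      · funext i
        simp only [key]
        have := h1' i
        omega
  have hc1 : ∑ i, (a i + (δ i).toNat) = Fintype.card K1 := by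
    rw [Fin.sum_univ_three]; omega
  have hc2 : ∑ i, (a i + (-δ i).toNat) = Fintype.card K2 := by
    rw [Fin.sum_univ_three]; omega
  have e1 := card_fibMaps_mul K1 (fun i => a i + (δ i).toNat) hc1
  have e2 := card_fibMaps_mul K2 (fun i => a i + (-δ i).toNat) hc2
  have e1' : ((fibMaps K1 (fun i => a i + (δ i).toNat)).card : ℝ)
      * ((((a 0 + (δ 0).toNat)! : ℕ) : ℝ) * (((a 1 + (δ 1).toNat)! : ℕ) : ℝ)
          * (((a 2 + (δ 2).toNat)! : ℕ) : ℝ)) = (((Fintype.card K1)! : ℕ) : ℝ) := by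
    exact_mod_cast e1
  have e2' : ((fibMaps K2 (fun i => a i + (-δ i).toNat)).card : ℝ)
      * ((((a 0 + (-δ 0).toNat)! : ℕ) : ℝ) * (((a 1 + (-δ 1).toNat)! : ℕ) : ℝ)
          * (((a 2 + (-δ 2).toNat)! : ℕ) : ℝ)) = (((Fintype.card K2)! : ℕ) : ℝ) := by
    exact_mod_cast e2
  have hsumfib : ∑ σ ∈ (states δ : Finset (Col K1 K2)).filter (fun σ => key δ σ = a), F (key δ σ)
      = (((states δ : Finset (Col K1 K2)).filter (fun σ => key δ σ = a)).card : ℝ) * F a := by
    rw [Finset.sum_congr rfl (fun σ hσ => by rw [(Finset.mem_filter.mp hσ).2] :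
      ∀ σ ∈ (states δ : Finset (Col K1 K2)).filter (fun σ => key δ σ = a), F (key δ σ) = F a),
      Finset.sum_const, nsmul_eq_mul]
  rw [hsumfib, hfib, Finset.card_product, Fin.prod_univ_three]
  push_cast
  unfold pw
  have p0 : (0 : ℝ) < ((a 0 + (δ 0).toNat)! : ℕ) := by exact_mod_cast Nat.factorial_pos _
  have p1 : (0 : ℝ) < ((a 1 + (δ 1).toNat)! : ℕ) := by exact_mod_cast Nat.factorial_pos _
  have p2 : (0 : ℝ) < ((a 2 + (δ 2).toNat)! : ℕ) := by exact_mod_cast Nat.factorial_pos _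
  have q0 : (0 : ℝ) < ((a 0 + (-δ 0).toNat)! : ℕ) := by exact_mod_cast Nat.factorial_pos _
  have q1 : (0 : ℝ) < ((a 1 + (-δ 1).toNat)! : ℕ) := by exact_mod_cast Nat.factorial_pos _
  have q2 : (0 : ℝ) < ((a 2 + (-δ 2).toNat)! : ℕ) := by exact_mod_cast Nat.factorial_pos _
  rw [← e1', ← e2']
  field_simp

/-- `cov` of two functions of the key in terms of the weighted sums. -/
theorem cov_regroup {Ω κ : Type*} (S : Finset Ω) (k : Ω → κ) (Δ : Finset κ) (wgt : κ → ℝ) (C : ℝ)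
    (hre : ∀ F : κ → ℝ, ∑ σ ∈ S, F (k σ) = C * ∑ a ∈ Δ, wgt a * F a) (F H : κ → ℝ) :
    cov S (fun σ => F (k σ)) (fun σ => H (k σ))
      = C ^ 2 * ((∑ a ∈ Δ, wgt a) * (∑ a ∈ Δ, wgt a * (F a * H a))
          - (∑ a ∈ Δ, wgt a * F a) * (∑ a ∈ Δ, wgt a * H a)) := by
  unfold cov
  have h1 : (S.card : ℝ) = C * ∑ a ∈ Δ, wgt a := by
    have := hre (fun _ => 1)
    simpa using this
  rw [h1, hre (fun a => F a * H a), hre F, hre H]
  ring

/-- `Bf ≥ 0` on functions of the level. -/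
theorem Bf_level_nonneg (δ : Fin 3 → ℤ) (ph : Fin 3 → ℕ → ℝ) :
    0 ≤ Bf δ (levelFn ph : Fin 3 × View K1 K2 → ℝ) (levelFn ph) := by
  by_cases hne : (states δ : Finset (Col K1 K2)).Nonempty
  swap
  · rw [Finset.not_nonempty_iff_eq_empty] at hne
    simp [Bf, cov, hne]
  have hmm : ∀ i, (((δ i).toNat : ℕ) : ℤ) - (((-δ i).toNat : ℕ) : ℤ) = δ i :=
    fun i => Int.toNat_sub_toNat_neg (δ i)
  set ph' : Fin 3 → ℕ → ℝ := fun i x => ph i (x + (δ i).toNat) with hph'
  have hre := sum_states_key (K1 := K1) (K2 := K2) δ hne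
  set n' := Fintype.card K1 - ((δ 0).toNat + (δ 1).toNat + (δ 2).toNat) with hn'
  set C := (((Fintype.card K1)! : ℕ) : ℝ) * (((Fintype.card K2)! : ℕ) : ℝ) with hC
  -- pull of a level function in terms of the key
  have hpull : ∀ σ ∈ (states δ : Finset (Col K1 K2)), ∀ i,
      pull (levelFn ph : Fin 3 × View K1 K2 → ℝ) i σ = ph' i (key δ σ i) := by
    intro σ hσ i
    have h1 := mem_states.mp hσ i
    have h2 := hmm i
    simp only [pull, levelFn, hph', key]
    congr 1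
    omega
  have hB : Bf δ (levelFn ph : Fin 3 × View K1 K2 → ℝ) (levelFn ph)
      = 2 * ∑ i, cov (states δ : Finset (Col K1 K2)) (fun σ => ph' i (key δ σ i))
            (fun σ => ph' i (key δ σ i))
        - cov (states δ : Finset (Col K1 K2)) (fun σ => ∑ i, ph' i (key δ σ i))
            (fun σ => ∑ i, ph' i (key δ σ i)) := by
    unfold Bf
    congr 1
    · congr 1
      exact Finset.sum_congr rfl fun i _ =>
        cov_congr _ (fun σ hσ => hpull σ hσ i) (fun σ hσ => hpull σ hσ i)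
    · exact cov_congr _ (fun σ hσ => by simp only [tot]; exact Finset.sum_congr rfl fun i _ => hpull σ hσ i)
        (fun σ hσ => by simp only [tot]; exact Finset.sum_congr rfl fun i _ => hpull σ hσ i)
  rw [hB]
  have hcov1 : ∀ i : Fin 3, cov (states δ : Finset (Col K1 K2)) (fun σ => ph' i (key δ σ i))
      (fun σ => ph' i (key δ σ i))
      = C ^ 2 * ((∑ a ∈ Finset.Nat.antidiagonalTuple 3 n', ∏ j, pw δ j (a j))
          * (∑ a ∈ Finset.Nat.antidiagonalTuple 3 n', (∏ j, pw δ j (a j)) * (ph' i (a i) * ph' i (a i)))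
          - (∑ a ∈ Finset.Nat.antidiagonalTuple 3 n', (∏ j, pw δ j (a j)) * ph' i (a i))
            * (∑ a ∈ Finset.Nat.antidiagonalTuple 3 n', (∏ j, pw δ j (a j)) * ph' i (a i))) :=
    fun i => cov_regroup _ (key δ) _ (fun a => ∏ j, pw δ j (a j)) C hre
      (fun a => ph' i (a i)) (fun a => ph' i (a i))
  have hcov2 := cov_regroup (states δ : Finset (Col K1 K2)) (key δ)
    (Finset.Nat.antidiagonalTuple 3 n') (fun a => ∏ j, pw δ j (a j)) C hre
    (fun a => ∑ i, ph' i (a i)) (fun a => ∑ i, ph' i (a i))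
  rw [hcov2]
  simp only [hcov1]
  have h1D := OneD.oneD (pw δ) (pw_pos δ) (pw_lc δ) n' ph'
  simp only [sq] at h1D
  rw [← Finset.mul_sum]
  have hC2 : 0 ≤ C ^ 2 := sq_nonneg C
  nlinarith [mul_nonneg hC2 (sub_nonneg.mpr h1D)]

/-- `Bf ≥ 0`: the quadratic-form version of (L3). -/
theorem Bf_nonneg (δ : Fin 3 → ℤ) (g : Fin 3 × View K1 K2 → ℝ) : 0 ≤ Bf δ g g :=
  Bf_nonneg_of_level δ (Bf_level_nonneg δ) g

/-- **(L3)** for the colouring model (PROOF.md §3): for mean-zero functions `g i` of the views,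
`∑ (g₀ + g₁ + g₂)² ≤ 2 ∑ (g₀² + g₁² + g₂²)` over the states. -/
theorem L3 (δ : Fin 3 → ℤ) (g : Fin 3 → View K1 K2 → ℝ)
    (hg : ∀ i, ∑ σ ∈ (states δ : Finset (Col K1 K2)), g i (view i σ) = 0) :
    ∑ σ ∈ (states δ : Finset (Col K1 K2)), (∑ i, g i (view i σ)) ^ 2
      ≤ 2 * ∑ σ ∈ (states δ : Finset (Col K1 K2)), ∑ i, (g i (view i σ)) ^ 2 :=
  L3_of_Bf_nonneg δ (Bf_nonneg δ) g hg

end Crest.Agent.Helper42.L3
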